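import Vale.Agent.P155.SW814.B

/-!
# P155, (SW), block (3)(B1), (B3): countably many exceptional levels, measurability
-/

namespace Vale.Agent.P155.SW814

open MeasureTheory Set TopologicalSpace Filter Topology Vale.Agent.P155.Q1 Metric

theorem isOpen_holeMeets {Ω : Set ℂ} (hΩ : IsOpen Ω) (z : ℂ) (O : Set ℂ) :
    IsOpen {G : NonemptyCompacts ℂ |
      (connectedComponentIn (Ω \ (G : Set ℂ)) z ∩ O).Nonempty} := by
  rw [isOpen_iff_mem_nhds]
  rintro G ⟨w, hw, hwO⟩
  have hz : z ∈ Ω \ (G : Set ℂ) := by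
    by_contra h
    rw [connectedComponentIn_eq_empty h] at hw
    exact hw
  have hUo : IsOpen (connectedComponentIn (Ω \ (G : Set ℂ)) z) :=
    (hΩ.sdiff G.isCompact.isClosed).connectedComponentIn
  have hUc : IsConnected (connectedComponentIn (Ω \ (G : Set ℂ)) z) :=
    isConnected_connectedComponentIn_iff.2 hz
  have hp := hUo.isConnected_iff_isPathConnected.1 hUc
  obtain ⟨γ, hγ⟩ := hp.joinedIn z (mem_connectedComponentIn hz) w hw
  have hsub : range γ ⊆ Ω \ (G : Set ℂ) := by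
    rintro _ ⟨t, rfl⟩
    exact connectedComponentIn_subset _ _ (hγ t)
  have hC : IsCompact (range γ) := isCompact_range γ.continuous
  have hopen := NonemptyCompacts.isOpen_subsets_of_isOpen hC.isClosed.isOpen_compl
  have hmem : G ∈ {K : NonemptyCompacts ℂ | (K : Set ℂ) ⊆ (range γ)ᶜ} :=
    fun v hv hv2 => (hsub hv2).2 hv
  filter_upwards [hopen.mem_nhds hmem] with G' hG'
  refine ⟨w, ?_, hwO⟩
  have h1 : range γ ⊆ Ω \ (G' : Set ℂ) := fun v hv => ⟨(hsub hv).1, fun h => hG' h hv⟩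
  exact (isPreconnected_range γ.continuous).subset_connectedComponentIn ⟨0, γ.source⟩ h1
    ⟨1, γ.target⟩

/-- the distance of the hole of `z` to `K` -/
noncomputable def dK (Ω K : Set ℂ) (z : ℂ) (G : NonemptyCompacts ℂ) : ℝ :=
  sInf ((fun w => infDist w K) '' connectedComponentIn (Ω \ (G : Set ℂ)) z)

theorem dK_nonneg (Ω K : Set ℂ) (z : ℂ) (G : NonemptyCompacts ℂ) : 0 ≤ dK Ω K z G :=
  Real.sInf_nonneg (by
    rintro _ ⟨w, _, rfl⟩
    exact infDist_nonneg)

theorem dK_lt {Ω K : Set ℂ} {z : ℂ} {G : NonemptyCompacts ℂ}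
    (h : (connectedComponentIn (Ω \ (G : Set ℂ)) z).Nonempty) (r : ℝ) :
    dK Ω K z G < r ↔ (connectedComponentIn (Ω \ (G : Set ℂ)) z ∩ {w | infDist w K < r}).Nonempty := by
  rw [dK, csInf_lt_iff ⟨0, by
    rintro _ ⟨w, _, rfl⟩
    exact infDist_nonneg⟩ (h.image _)]
  constructor
  · rintro ⟨_, ⟨w, hw, rfl⟩, h2⟩
    exact ⟨w, hw, h2⟩
  · rintro ⟨w, hw, h2⟩
    exact ⟨_, ⟨w, hw, rfl⟩, h2⟩

theorem measurable_dK {Ω : Set ℂ} (hΩ : IsOpen Ω) (K : Set ℂ) (z : ℂ) :
    Measurable (dK Ω K z) := by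
  apply measurable_of_Iio
  intro r
  have e : dK Ω K z ⁻¹' Iio r =
      {G : NonemptyCompacts ℂ | (connectedComponentIn (Ω \ (G : Set ℂ)) z ∩
        {w | infDist w K < r}).Nonempty} ∪
      ({G : NonemptyCompacts ℂ | (connectedComponentIn (Ω \ (G : Set ℂ)) z ∩ univ).Nonempty}ᶜ ∩
        {_G | (0 : ℝ) < r}) := by
    ext G
    by_cases h : (connectedComponentIn (Ω \ (G : Set ℂ)) z).Nonempty
    · simp only [mem_preimage, mem_Iio, mem_union, mem_inter_iff, mem_compl_iff, mem_ofPred_eq,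
        inter_univ, h, not_true_eq_false, false_and, or_false]
      exact dK_lt h r
    · have h0 : connectedComponentIn (Ω \ (G : Set ℂ)) z = ∅ := not_nonempty_iff_eq_empty.1 h
      simp only [mem_preimage, mem_Iio, mem_union, mem_inter_iff, mem_compl_iff, mem_ofPred_eq,
        h0, empty_inter, Set.not_nonempty_empty, not_false_eq_true, true_and, false_or]
      rw [dK, h0, image_empty, Real.sInf_empty]
  rw [e]
  exact (isOpen_holeMeets hΩ z _).measurableSet.union
    ((isOpen_holeMeets hΩ z _).measurableSet.compl.inter (MeasurableSet.const _))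

/-- every hole is the hole of a point of the dense sequence -/
theorem hole_dense {Ω : Set ℂ} (hΩ : IsOpen Ω) {G : NonemptyCompacts ℂ} {U : Set ℂ}
    (hU : IsHole Ω G U) : ∃ i, denseSeq ℂ i ∈ Ω \ (G : Set ℂ) ∧
      U = connectedComponentIn (Ω \ (G : Set ℂ)) (denseSeq ℂ i) := by
  obtain ⟨z, hz, rfl⟩ := hU
  have hUo : IsOpen (connectedComponentIn (Ω \ (G : Set ℂ)) z) :=
    (hΩ.sdiff G.isCompact.isClosed).connectedComponentIn
  obtain ⟨_, hw, ⟨i, rfl⟩⟩ := (denseRange_denseSeq ℂ).inter_open_nonempty _ hUo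
    ⟨z, mem_connectedComponentIn hz⟩
  exact ⟨i, connectedComponentIn_subset _ _ hw, connectedComponentIn_eq hw⟩

/-- no hole has distance exactly `t` to `K` -/
def GoodT (Ω G K : Set ℂ) (t : ℝ) : Prop :=
  ∀ U, IsHole Ω G U → (closure U ∩ cthickening t K).Nonempty → ∃ w ∈ U, infDist w K < t

theorem goodT_of_dK {Ω K : Set ℂ} (hΩ : IsOpen Ω) {t : ℝ} (ht : 0 ≤ t)
    {G : NonemptyCompacts ℂ} (h : ∀ i, dK Ω K (denseSeq ℂ i) G ≠ t) : GoodT Ω G K t := by
  intro U hU hm
  obtain ⟨i, hi, rfl⟩ := hole_dense hΩ hU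
  have hne : (connectedComponentIn (Ω \ (G : Set ℂ)) (denseSeq ℂ i)).Nonempty :=
    ⟨_, mem_connectedComponentIn hi⟩
  have hle : dK Ω K (denseSeq ℂ i) G ≤ t := by
    apply le_of_forall_pos_lt_add
    intro ε hε
    rw [dK_lt hne]
    obtain ⟨v, hv, hv2⟩ := hm
    have h1 := infDist_le_of_mem ht hv2
    have ho : IsOpen {w | infDist w K < t + ε} :=
      isOpen_lt (continuous_infDist_pt K) continuous_const
    rw [inter_comm]
    exact mem_closure_iff.1 hv _ ho (by
      show infDist v K < t + ε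
      linarith)
  obtain ⟨w, hw, hw2⟩ := (dK_lt hne t).1 (lt_of_le_of_ne hle (h i))
  exact ⟨w, hw, hw2⟩

/-- **(B1)** for all but countably many `t`, almost surely no hole has distance `t` to `K` -/
theorem countable_bad {Ω : Set ℂ} (hΩ : IsOpen Ω) (K : Set ℂ) {Θ : Type*} [MeasurableSpace Θ]
    {P : Measure Θ} [SFinite P] {G : Θ → NonemptyCompacts ℂ} (hG : Measurable G) :
    ∃ N : Set ℝ, N.Countable ∧ ∀ t, 0 ≤ t → t ∉ N → ∀ᵐ x ∂P, GoodT Ω (G x) K t := by
  refine ⟨⋃ i, {t : ℝ | 0 < P {x | dK Ω K (denseSeq ℂ i) (G x) = t}},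
    countable_iUnion fun i =>
      Measure.countable_meas_level_set_pos ((measurable_dK hΩ K _).comp hG), ?_⟩
  intro t ht hN
  rw [mem_iUnion] at hN
  push Not at hN
  have h : ∀ᵐ x ∂P, ∀ i, dK Ω K (denseSeq ℂ i) (G x) ≠ t := by
    rw [ae_all_iff]
    intro i
    have h1 := hN i
    rw [mem_ofPred_eq, not_lt, nonpos_iff_eq_zero] at h1
    rw [ae_iff]
    simpa using h1
  filter_upwards [h] with x hx using goodT_of_dK hΩ ht hx

/-- for all but countably many `t`, for countably many random carpets -/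
theorem countable_bad' {Ω : Set ℂ} (hΩ : IsOpen Ω) (K : Set ℂ) {ι : Type*} [Countable ι]
    {Θ : Type*} [MeasurableSpace Θ] {P : Measure Θ} [SFinite P] {G : ι → Θ → NonemptyCompacts ℂ}
    (hG : ∀ k, Measurable (G k)) :
    ∃ N : Set ℝ, N.Countable ∧ ∀ t, 0 ≤ t → t ∉ N → ∀ᵐ x ∂P, ∀ k, GoodT Ω (G k x) K t := by
  choose N hN hN2 using fun k => countable_bad (P := P) hΩ K (hG k)
  refine ⟨⋃ k, N k, countable_iUnion hN, ?_⟩
  intro t ht htN
  rw [ae_all_iff]
  intro k
  exact hN2 k t ht fun h => htN (mem_iUnion.2 ⟨k, h⟩)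

/-- good levels decrease to `0` -/
theorem exists_good_seq {N : Set ℝ} (hN : N.Countable) :
    ∃ t : ℕ → ℝ, (∀ n, 0 < t n) ∧ (∀ n, t n ∉ N) ∧ Tendsto t atTop (𝓝[>] 0) := by
  have hd : Dense Nᶜ := hN.dense_compl ℝ
  have h : ∀ n : ℕ, ∃ t : ℝ, t ∈ Ioo (0 : ℝ) (1 / ((n : ℝ) + 1)) ∧ t ∉ N := by
    intro n
    obtain ⟨t, ht, ht2⟩ := hd.inter_open_nonempty (Ioo (0 : ℝ) (1 / ((n : ℝ) + 1))) isOpen_Ioo
      (nonempty_Ioo.2 Nat.one_div_pos_of_nat)
    exact ⟨t, ht, ht2⟩
  choose t ht htN using h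
  refine ⟨t, fun n => (ht n).1, htN, ?_⟩
  rw [tendsto_nhdsWithin_iff]
  refine ⟨?_, Eventually.of_forall fun n => (ht n).1⟩
  exact squeeze_zero (fun n => (ht n).1.le) (fun n => (ht n).2.le)
    tendsto_one_div_add_atTop_nhds_zero_nat

/-! ### measurability -/

theorem meets_iff {Ω K : Set ℂ} (hb : Bornology.IsBounded Ω) (hKn : K.Nonempty) {t : ℝ}
    (ht : 0 ≤ t) {G : Set ℂ} {z : ℂ} :
    (closure (connectedComponentIn (Ω \ G) z) ∩ cthickening t K).Nonempty ↔
      ∀ n : ℕ, (connectedComponentIn (Ω \ G) z ∩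
        {w | infDist w K < t + 1 / ((n : ℝ) + 1)}).Nonempty := by
  constructor
  · rintro ⟨v, hv, hv2⟩ n
    have h1 := infDist_le_of_mem ht hv2
    have ho : IsOpen {w | infDist w K < t + 1 / ((n : ℝ) + 1)} :=
      isOpen_lt (continuous_infDist_pt K) continuous_const
    rw [inter_comm]
    exact mem_closure_iff.1 hv _ ho (by
      show infDist v K < t + 1 / ((n : ℝ) + 1)
      have : (0 : ℝ) < 1 / ((n : ℝ) + 1) := Nat.one_div_pos_of_nat
      linarith)
  · intro h
    have hbd : Bornology.IsBounded (connectedComponentIn (Ω \ G) z) :=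
      hb.subset ((connectedComponentIn_subset _ _).trans sdiff_subset)
    obtain ⟨w0, hw0, _⟩ := h 0
    obtain ⟨v, hv, hv2⟩ := hbd.isCompact_closure.exists_isMinOn ⟨w0, subset_closure hw0⟩
      (continuous_infDist_pt K).continuousOn
    refine ⟨v, hv, ?_⟩
    have hle : infDist v K ≤ t := by
      apply le_of_forall_pos_lt_add
      intro ε hε
      obtain ⟨n, hn⟩ := exists_nat_one_div_lt hε
      obtain ⟨w, hw, hw2⟩ := h n
      have h1 : infDist v K ≤ infDist w K := hv2 (subset_closure hw)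
      have h2 : infDist w K < t + 1 / ((n : ℝ) + 1) := hw2
      linarith
    by_contra hcon
    have := infDist_of_not_mem hKn ht hcon
    linarith

theorem infDist_KK_lt {Ω K : Set ℂ} (hΩ : IsOpen Ω) (hKn : K.Nonempty) {t : ℝ}
    {G : NonemptyCompacts ℂ} {z : ℂ} {r : ℝ} :
    infDist z (KK Ω G K t) < r ↔ infDist z (cthickening t K) < r ∨
      ∃ i, (closure (connectedComponentIn (Ω \ (G : Set ℂ)) (denseSeq ℂ i)) ∩
        cthickening t K).Nonempty ∧
        (connectedComponentIn (Ω \ (G : Set ℂ)) (denseSeq ℂ i) ∩ ball z r).Nonempty := by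
  have hne : (cthickening t K).Nonempty := hKn.mono (self_subset_cthickening K)
  have hne2 : (KK Ω G K t).Nonempty := hne.mono fun _ h => Or.inl h
  rw [infDist_lt_iff hne2, infDist_lt_iff hne]
  constructor
  · rintro ⟨w, hw, hwr⟩
    rcases hw with hw | hw
    · exact Or.inl ⟨w, hw, hwr⟩
    · rw [mem_iUnion₂] at hw
      obtain ⟨U, ⟨hU, hU2⟩, hwU⟩ := hw
      obtain ⟨i, hi, rfl⟩ := hole_dense hΩ hU
      refine Or.inr ⟨i, hU2, ?_⟩
      rw [inter_comm]
      exact mem_closure_iff.1 hwU _ isOpen_ball (by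
        rw [mem_ball, dist_comm]
        exact hwr)
  · rintro (⟨w, hw, hwr⟩ | ⟨i, hi, w, hw, hwr⟩)
    · exact ⟨w, Or.inl hw, hwr⟩
    · refine ⟨w, Or.inr ?_, ?_⟩
      · rw [mem_iUnion₂]
        refine ⟨_, ⟨⟨denseSeq ℂ i, ?_, rfl⟩, hi⟩, subset_closure hw⟩
        by_contra h
        rw [connectedComponentIn_eq_empty h] at hw
        exact hw
      · rw [dist_comm]
        exact hwr

/-- **(B3)** measurability of the distances to `KK` -/
theorem measurable_KK {Ω K : Set ℂ} (hΩ : IsOpen Ω) (hb : Bornology.IsBounded Ω)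
    (hKn : K.Nonempty) {t : ℝ} (ht : 0 ≤ t) (z : ℂ) :
    Measurable (fun G : NonemptyCompacts ℂ => infDist z (KK Ω G K t)) := by
  apply measurable_of_Iio
  intro r
  have e : (fun G : NonemptyCompacts ℂ => infDist z (KK Ω G K t)) ⁻¹' Iio r =
      {_G : NonemptyCompacts ℂ | infDist z (cthickening t K) < r} ∪
      ⋃ i, ((⋂ n : ℕ, {G : NonemptyCompacts ℂ |
        (connectedComponentIn (Ω \ (G : Set ℂ)) (denseSeq ℂ i) ∩
        {w | infDist w K < t + 1 / ((n : ℝ) + 1)}).Nonempty}) ∩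
        {G : NonemptyCompacts ℂ | (connectedComponentIn (Ω \ (G : Set ℂ)) (denseSeq ℂ i) ∩
          ball z r).Nonempty}) := by
    ext G
    rw [mem_preimage, mem_Iio, infDist_KK_lt hΩ hKn, mem_union, mem_iUnion, mem_ofPred_eq]
    refine or_congr Iff.rfl (exists_congr fun i => ?_)
    rw [meets_iff hb hKn ht, mem_inter_iff, mem_iInter]
    exact Iff.rfl
  rw [e]
  exact (MeasurableSet.const _).union (MeasurableSet.iUnion fun i =>
    (MeasurableSet.iInter fun n => (isOpen_holeMeets hΩ _ _).measurableSet).inter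
      (isOpen_holeMeets hΩ _ _).measurableSet)

end Vale.Agent.P155.SW814
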