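import Vale.Agent.P155.SW814.L1
import Vale.Agent.P155.SW743.Pass

/-!
# P155, (SW), block (3), (L1) in the form of `SW743.Pass`
-/

namespace Vale.Agent.P155.SW814

open Vale.Agent.P155 MeasureTheory Filter Topology TopologicalSpace K

theorem l1p {Ω : Set ℂ} (ho : IsOpen Ω) (hb : Bornology.IsBounded Ω) (hne : Ω.Nonempty)
    (hsc : SimplyConnectedSpace Ω) (S : TempApprox Ω) {Θ : Type} [MeasurableSpace Θ]
    {P : Measure Θ} [IsProbabilityMeasure P] {G : ℕ → Θ → NonemptyCompacts ℂ}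
    {H : ℕ → Θ → (ℂ → ℝ) → ℝ} (h : Vale.Agent.P155.IsSignedCarpets P Ω G H) {φ : ℂ → ℝ}
    (hφ : Vale.Agent.P155.IsTest Ω φ) : SW743.L1P S P G H φ := by
  intro g hg hgb
  exact (L1 ho hb hne hsc S h hφ hg hgb).2

/-- the case of fair carpets -/
theorem l1p_fair {Ω : Set ℂ} (ho : IsOpen Ω) (hb : Bornology.IsBounded Ω) (hne : Ω.Nonempty)
    (hsc : SimplyConnectedSpace Ω) (S : TempApprox Ω) {Θ : Type} [MeasurableSpace Θ]
    {P : Measure Θ} {G : ℕ → Θ → NonemptyCompacts ℂ} {ξ : ℕ → ℕ → Θ → ℝ}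
    (h : T211Q.FairCarpets P Ω G ξ) {φ : ℂ → ℝ} (hφ : Vale.Agent.P155.IsTest Ω φ) :
    SW743.L1P S P G (SWR.hgt Ω G ξ) φ := by
  have := h.prob
  exact l1p ho hb hne hsc S h.sc hφ

end Vale.Agent.P155.SW814
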