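import Vale.Agent.P155.SW814.Bt
import Vale.Agent.P155.SW801.Defs

/-!
# P155, (SW): adapters between `SW814.KK` and `SWR.KK`
-/

namespace Vale.Agent.P155.SW814

open MeasureTheory Set TopologicalSpace Filter Topology Vale.Agent.P155.Q1 Metric

theorem KK_eq {Ω K s : Set ℂ} (hK : IsClosed K) : KK Ω s K 0 = SWR.KK Ω K s := by
  rw [KK_zero hK, SWR.KK]
  congr 1
  ext w
  simp only [mem_iUnion, mem_sUnion, exists_prop, mem_ofPred_eq]
  constructor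
  · rintro ⟨U, ⟨hU, hU2⟩, hw⟩
    exact ⟨closure U, ⟨U, hU, hU2, rfl⟩, hw⟩
  · rintro ⟨C, ⟨U, hU, hU2, rfl⟩, hw⟩
    exact ⟨U, ⟨hU, hU2⟩, hw⟩

theorem measurable_SWR_KK {Ω K : Set ℂ} (hΩ : IsOpen Ω) (hb : Bornology.IsBounded Ω)
    (hKn : K.Nonempty) (hK : IsClosed K) (z : ℂ) :
    Measurable (fun G : NonemptyCompacts ℂ => infDist z (SWR.KK Ω K (G : Set ℂ))) := by
  have h := measurable_KK hΩ hb hKn (le_refl (0 : ℝ)) z
  simp only [KK_eq hK] at h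
  exact h

theorem tendsto_SWR_KK {Ω G K : Set ℂ} (hb : Bornology.IsBounded Ω)
    (hfin : ∀ ε : ℝ, 0 < ε → {U : Set ℂ | IsHole Ω G U ∧ ε < diam U}.Finite)
    (hKn : K.Nonempty) (hK : IsClosed K) (z : ℂ) :
    Tendsto (fun t => infDist z (KK Ω G K t)) (𝓝[>] 0) (𝓝 (infDist z (SWR.KK Ω K G))) := by
  have h := tendsto_KK hb hfin hKn hK z
  rwa [KK_eq hK] at h

end Vale.Agent.P155.SW814
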