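import Vale.Agent.P155.NT814Y.Cut

/-!
# P155, (SW), block (3)(B): the exceptional levels are countable; the limit `t → 0+`

`K` is a fixed closed set, `Kt = Metric.cthickening t K`, and
`KK Ω G K t` is the union of `Kt` and of the closures of the holes of `G` whose closure meets `Kt`.
-/

namespace Vale.Agent.P155.SW814

open MeasureTheory Set TopologicalSpace Filter Topology Vale.Agent.P155.Q1 Metric

/-- `K_t` and the closures of the holes whose closure meets `K_t` -/
def KK (Ω G K : Set ℂ) (t : ℝ) : Set ℂ :=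
  Metric.cthickening t K ∪
    ⋃ U ∈ {U : Set ℂ | IsHole Ω G U ∧ (closure U ∩ Metric.cthickening t K).Nonempty}, closure U

/-! ### general limits -/

theorem tendsto_infDist_zero {A : ℝ → Set ℂ} (hm : ∀ s t, 0 ≤ s → s ≤ t → A s ⊆ A t)
    (hc : ∀ t, 0 < t → IsClosed (A t)) (hne : (A 0).Nonempty)
    (hi : ∀ w, (∀ t, 0 < t → w ∈ A t) → w ∈ A 0) (z : ℂ) :
    Tendsto (fun t => infDist z (A t)) (𝓝[>] 0) (𝓝 (infDist z (A 0))) := by
  rw [Metric.tendsto_nhdsWithin_nhds]
  intro ε hε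
  set d := infDist z (A 0) with hd
  have hle : ∀ t, 0 ≤ t → infDist z (A t) ≤ d := fun t ht =>
    infDist_le_infDist_of_subset (hm 0 t le_rfl ht) hne
  by_contra hcon
  push Not at hcon
  have hall : ∀ t, 0 < t → infDist z (A t) ≤ d - ε := by
    intro t ht
    obtain ⟨s, hs, hst, hsd⟩ := hcon t ht
    have hs0 : 0 < s := hs
    rw [Real.dist_eq, sub_zero, abs_of_pos hs0] at hst
    have h1 := hle s hs0.le
    rw [Real.dist_eq, abs_sub_comm, abs_of_nonneg (by linarith)] at hsd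
    have h2 : infDist z (A t) ≤ infDist z (A s) :=
      infDist_le_infDist_of_subset (hm s t hs0.le hst.le)
        (hne.mono (hm 0 s le_rfl hs0.le))
    linarith
  set C : ℕ → Set ℂ := fun n => A (1 / ((n : ℝ) + 1)) ∩ closedBall z (d - ε) with hC
  have hpos : ∀ n : ℕ, (0 : ℝ) < 1 / ((n : ℝ) + 1) := fun n => Nat.one_div_pos_of_nat
  have hCn : ∀ n, (C n).Nonempty := by
    intro n
    obtain ⟨y, hy, hy2⟩ := (hc _ (hpos n)).exists_infDist_eq_dist
      (hne.mono (hm 0 _ le_rfl (hpos n).le)) z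
    refine ⟨y, hy, ?_⟩
    rw [mem_closedBall, dist_comm, ← hy2]
    exact hall _ (hpos n)
  have hCd : ∀ n, C (n + 1) ⊆ C n := by
    intro n
    apply inter_subset_inter_left
    apply hm _ _ (hpos _).le
    apply one_div_le_one_div_of_le (by positivity)
    push_cast
    linarith
  have hC0 : IsCompact (C 0) := (isCompact_closedBall z _).inter_left (hc _ (hpos 0))
  have hCc : ∀ n, IsClosed (C n) := fun n => (hc _ (hpos n)).inter isClosed_closedBall
  obtain ⟨w, hw⟩ := IsCompact.nonempty_iInter_of_sequence_nonempty_isCompact_isClosed C hCd hCn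
    hC0 hCc
  rw [mem_iInter] at hw
  have hwA : w ∈ A 0 := by
    apply hi
    intro t ht
    obtain ⟨n, hn⟩ := exists_nat_one_div_lt ht
    exact hm _ _ (hpos n).le hn.le (hw n).1
  have h1 : d ≤ dist z w := infDist_le_dist_of_mem hwA
  have h2 := (hw 0).2
  rw [mem_closedBall, dist_comm] at h2
  linarith

/-! ### `KK` is closed and right continuous at `0` -/

theorem KK_mono {Ω G K : Set ℂ} {s t : ℝ} (h : s ≤ t) : KK Ω G K s ⊆ KK Ω G K t := by
  apply union_subset_union (cthickening_mono h K)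
  intro w hw
  rw [mem_iUnion₂] at hw ⊢
  obtain ⟨U, ⟨hU, hU2⟩, hw⟩ := hw
  exact ⟨U, ⟨hU, hU2.mono (inter_subset_inter_right _ (cthickening_mono h K))⟩, hw⟩

theorem hole_bdd {Ω G U : Set ℂ} (hb : Bornology.IsBounded Ω) (hU : IsHole Ω G U) :
    Bornology.IsBounded U := by
  obtain ⟨z, _, rfl⟩ := hU
  exact hb.subset ((connectedComponentIn_subset _ _).trans sdiff_subset)

theorem infDist_of_not_mem {K : Set ℂ} (hKn : K.Nonempty) {t : ℝ} (ht : 0 ≤ t) {w : ℂ}
    (h : w ∉ cthickening t K) : t < infDist w K := by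
  by_contra hcon
  push Not at hcon
  apply h
  rw [mem_cthickening_iff]
  rw [infDist] at hcon
  exact (ENNReal.le_ofReal_iff_toReal_le (infEDist_ne_top hKn) ht).2 hcon

theorem infDist_le_of_mem {K : Set ℂ} {t : ℝ} (ht : 0 ≤ t) {w : ℂ}
    (h : w ∈ cthickening t K) : infDist w K ≤ t := by
  rw [mem_cthickening_iff] at h
  rw [infDist]
  exact ENNReal.toReal_le_of_le_ofReal ht h

theorem diam_gt {Ω G U : Set ℂ} (hb : Bornology.IsBounded Ω) (hU : IsHole Ω G U) {K : Set ℂ}
    (hKn : K.Nonempty) {t η : ℝ} (ht : 0 ≤ t) {w : ℂ} (hw : w ∈ closure U)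
    (hwK : t + η < infDist w K) (hm : (closure U ∩ cthickening t K).Nonempty) :
    η < diam U := by
  obtain ⟨v, hv, hv2⟩ := hm
  have h1 := infDist_le_of_mem ht hv2
  have h2 : infDist w K ≤ infDist v K + dist w v := infDist_le_infDist_add_dist
  have h3 : dist w v ≤ diam (closure U) :=
    dist_le_diam_of_mem (hole_bdd hb hU).closure hw hv
  rw [diam_closure] at h3
  linarith

theorem isClosed_KK {Ω G K : Set ℂ} (hb : Bornology.IsBounded Ω)
    (hfin : ∀ ε : ℝ, 0 < ε → {U : Set ℂ | IsHole Ω G U ∧ ε < diam U}.Finite)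
    (hKn : K.Nonempty) {t : ℝ} (ht : 0 ≤ t) : IsClosed (KK Ω G K t) := by
  rw [← closure_subset_iff_isClosed]
  intro w hw
  by_contra hcon
  have hwt : w ∉ cthickening t K := fun h => hcon (Or.inl h)
  have hd := infDist_of_not_mem hKn ht hwt
  set η := (infDist w K - t) / 3 with hη
  have hη0 : 0 < η := by
    rw [hη]
    linarith
  have hF := hfin η hη0
  set F := {U : Set ℂ | IsHole Ω G U ∧ η < diam U} with hFd
  set F' := {U ∈ F | (closure U ∩ cthickening t K).Nonempty} with hF'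
  have hF'f : F'.Finite := hF.subset (sep_subset _ _)
  have hcl : IsClosed (⋃ U ∈ F', closure U) :=
    hF'f.isClosed_biUnion fun U _ => isClosed_closure
  have hnot : w ∉ ⋃ U ∈ F', closure U := by
    intro h
    rw [mem_iUnion₂] at h
    obtain ⟨U, hU, hwU⟩ := h
    apply hcon
    right
    rw [mem_iUnion₂]
    exact ⟨U, ⟨hU.1.1, hU.2⟩, hwU⟩
  have hnb : ball w η ∩ (⋃ U ∈ F', closure U)ᶜ ∈ 𝓝 w :=
    inter_mem (ball_mem_nhds w hη0) (hcl.isOpen_compl.mem_nhds hnot)
  obtain ⟨v, hv, hvK⟩ := mem_closure_iff_nhds.1 hw _ hnb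
  have hvw : dist w v < η := by
    rw [dist_comm]
    exact hv.1
  have hvd : t + η < infDist v K := by
    have := infDist_le_infDist_add_dist (s := K) (x := w) (y := v)
    rw [hη] at hvw ⊢
    linarith
  rcases hvK with hvK | hvK
  · have := infDist_le_of_mem ht hvK
    linarith
  · rw [mem_iUnion₂] at hvK
    obtain ⟨U, ⟨hU, hU2⟩, hvU⟩ := hvK
    apply hv.2
    rw [mem_iUnion₂]
    exact ⟨U, ⟨⟨hU, diam_gt hb hU hKn ht hvU hvd hU2⟩, hU2⟩, hvU⟩

theorem eventually_meets {C K : Set ℂ} (hC : IsCompact C) (hK : IsClosed K) :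
    ∀ᶠ t in 𝓝[>] (0 : ℝ), (C ∩ cthickening t K).Nonempty → (C ∩ K).Nonempty := by
  by_cases h : (C ∩ K).Nonempty
  · exact Eventually.of_forall fun _ _ => h
  · rw [not_nonempty_iff_eq_empty, ← disjoint_iff_inter_eq_empty] at h
    obtain ⟨δ, hδ, hd⟩ := h.exists_cthickenings hC hK
    filter_upwards [Ioo_mem_nhdsGT hδ] with t ht h1
    exfalso
    obtain ⟨v, hv, hv2⟩ := h1
    exact disjoint_left.1 hd (self_subset_cthickening _ hv) (cthickening_mono ht.2.le K hv2)

theorem KK_inter {Ω G K : Set ℂ} (hb : Bornology.IsBounded Ω)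
    (hfin : ∀ ε : ℝ, 0 < ε → {U : Set ℂ | IsHole Ω G U ∧ ε < diam U}.Finite)
    (hKn : K.Nonempty) (hK : IsClosed K) {w : ℂ} (hw : ∀ t, 0 < t → w ∈ KK Ω G K t) :
    w ∈ KK Ω G K 0 := by
  by_contra hcon
  have hwK : w ∉ cthickening 0 K := fun h => hcon (Or.inl h)
  have hd := infDist_of_not_mem hKn le_rfl hwK
  set η := infDist w K / 3 with hη
  have hη0 : 0 < η := by
    rw [hη]
    linarith
  have hF := hfin η hη0
  have hev := (hF.eventually_all (l := 𝓝[>] (0 : ℝ)) (p := fun U t =>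
    (closure U ∩ cthickening t K).Nonempty → (closure U ∩ K).Nonempty)).2
      fun U hU => eventually_meets (hole_bdd hb hU.1).isCompact_closure hK
  obtain ⟨t, ht, ht2⟩ := (hev.and (Ioo_mem_nhdsGT hη0)).exists
  have hwt := hw t ht2.1
  rcases hwt with h | h
  · have := infDist_le_of_mem ht2.1.le h
    have h2 := ht2.2
    rw [hη] at h2
    linarith
  · rw [mem_iUnion₂] at h
    obtain ⟨U, ⟨hU, hU2⟩, hwU⟩ := h
    have hdm : η < diam U := by
      apply diam_gt hb hU hKn ht2.1.le hwU _ hU2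
      have h2 := ht2.2
      rw [hη] at h2 ⊢
      linarith
    apply hcon
    right
    rw [mem_iUnion₂]
    exact ⟨U, ⟨hU, (ht U ⟨hU, hdm⟩ hU2).mono
      (inter_subset_inter_right _ (self_subset_cthickening K))⟩, hwU⟩

/-- **(B2)** the limit `t → 0+` -/
theorem tendsto_KK {Ω G K : Set ℂ} (hb : Bornology.IsBounded Ω)
    (hfin : ∀ ε : ℝ, 0 < ε → {U : Set ℂ | IsHole Ω G U ∧ ε < diam U}.Finite)
    (hKn : K.Nonempty) (hK : IsClosed K) (z : ℂ) :
    Tendsto (fun t => infDist z (KK Ω G K t)) (𝓝[>] 0) (𝓝 (infDist z (KK Ω G K 0))) :=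
  tendsto_infDist_zero (fun _ _ _ h => KK_mono h) (fun _ ht => isClosed_KK hb hfin hKn ht.le)
    (hKn.mono fun _ h => Or.inl (self_subset_cthickening K h))
    (fun _ h => KK_inter hb hfin hKn hK h) z

theorem KK_zero {Ω G K : Set ℂ} (hK : IsClosed K) : KK Ω G K 0 =
    K ∪ ⋃ U ∈ {U : Set ℂ | IsHole Ω G U ∧ (closure U ∩ K).Nonempty}, closure U := by
  rw [KK, cthickening_zero, hK.closure_eq]

end Vale.Agent.P155.SW814
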