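import Vale.Agent.P155.SW924.K0

/-!
# P155 (SW), block (6a): the identity `gff` for the conditional laws given a function of the first
carpet
-/

namespace Vale.Agent.P155.SW814

open MeasureTheory ProbabilityTheory Set TopologicalSpace Filter Topology Uq NT730Y

variable {Ω : Set ℂ}

theorem dd_wt (k : ℕ) (φ : ℂ → ℝ) (s : Sp Ω) : dd k φ s =
    SWR.wt (pr (s (k + 1)).2 φ - pr (s k).2 φ) (greenEnergy (Ω \ (s (k + 1)).1) φ) -
      Complex.exp (- greenEnergy (Ω \ (s k).1) φ / 2) := by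
  unfold dd SWR.wt cst
  push_cast
  rfl

theorem wt_eq (k : ℕ) (φ : ℂ → ℝ) (s : Sp Ω) :
    SWR.wt (pr (s (k + 1)).2 φ - pr (s k).2 φ) (greenEnergy (Ω \ (s (k + 1)).1) φ) =
    Complex.exp (Complex.I * cst * (pr (s (k + 1)).2 φ - pr (s k).2 φ) -
      greenEnergy (Ω \ (s (k + 1)).1) φ / 2) := by
  unfold SWR.wt cst
  push_cast
  rfl

/-- **(K4a)** the identity `gff` holds for the conditional laws given a function of the first
carpet -/
theorem gff_kapY (hΩ : IsOpen Ω) (hb : Bornology.IsBounded Ω) {Q : Measure (Sp Ω)}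
    [IsProbabilityMeasure Q] (hQ : Canon Ω Q) {h : NonemptyCompacts ℂ → ℕ → ℝ}
    (hh : Measurable h) :
    ∀ᵐ y ∂(Q.map (fun s => h (s 1).1)), ∀ k, 1 ≤ k → ∀ φ, IsTest Ω φ → ∀ Ψ : Past Ω k → ℝ, BM Ψ →
      ∫ s, (Ψ (past k s) : ℂ) * SWR.wt (pr (s (k + 1)).2 φ - pr (s k).2 φ)
          (greenEnergy (Ω \ (s (k + 1)).1) φ) ∂(SW924.kap Q (fun s => h (s 1).1) y) =
        ∫ s, (Ψ (past k s) : ℂ) * Complex.exp (-greenEnergy (Ω \ (s k).1) φ / 2)
          ∂(SW924.kap Q (fun s => h (s 1).1) y) := by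
  have hY : Measurable (fun s : Sp Ω => h (s 1).1) :=
    hh.comp (measurable_fst.comp (measurable_pi_apply 1))
  obtain ⟨R, hR⟩ := Xe.exists_isR hΩ hb
  obtain ⟨e, he, hd⟩ := exists_dense (R := R) Ω
  have h1 : ∀ᵐ y ∂(Q.map (fun s => h (s 1).1)), ∀ j n, ∀ T : Set (Past Ω (j + 1)),
      MeasurableSet T → ∫ s in (past (j + 1)) ⁻¹' T, dd (j + 1) (e n) s
        ∂(SW924.kap Q (fun s => h (s 1).1) y) = 0 := by
    rw [ae_all_iff]
    intro j
    rw [ae_all_iff]
    intro n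
    refine SW924.kap_zero (C := 2) hY (U613.measurable_past Ω (j + 1))
      ((meas_e1 hb (he n) (j + 1)).sub (meas_e2 hb (he n) (j + 1))) ?_ ?_
    · intro s
      refine (norm_sub_le _ _).trans ?_
      have := e1_le hb (he n) (j + 1) s
      have := e2_le hb (he n) (j + 1) s
      linarith
    · intro B hB T hT
      have h2 := gff_zero hb hQ (j + 1) (he n) (T := T ∩ {y | h (y 1).1 ∈ B})
        (hT.inter (hh.comp (measurable_fst.comp (measurable_pi_apply (1 : Fin (j + 1 + 1)))) hB))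
      have e1 : (fun s : Sp Ω => h (s 1).1) ⁻¹' B ∩ (past (j + 1)) ⁻¹' T =
          (past (j + 1)) ⁻¹' (T ∩ {y | h (y 1).1 ∈ B}) := by
        ext s
        simp only [mem_inter_iff, mem_preimage, mem_ofPred_eq, past]
        rw [and_comm]
        rfl
      rw [e1]
      exact h2
  filter_upwards [h1] with p hp k hk φ hφ Ψ hΨ
  obtain ⟨j, rfl⟩ := Nat.exists_eq_add_of_le' hk
  obtain ⟨u, hu1, hu2⟩ := hd φ hφ
  obtain ⟨C, hC⟩ := hΨ.2
  set κ := SW924.kap Q (fun s => h (s 1).1) p with hκ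
  have hdm : ∀ ψ, IsTest Ω ψ → Measurable (dd (Ω := Ω) (j + 1) ψ) := fun ψ hψ =>
    (meas_e1 hb hψ (j + 1)).sub (meas_e2 hb hψ (j + 1))
  have hdb : ∀ ψ, IsTest Ω ψ → ∀ s, ‖dd (Ω := Ω) (j + 1) ψ s‖ ≤ 2 := by
    intro ψ hψ s
    refine (norm_sub_le _ _).trans ?_
    have := e1_le hb hψ (j + 1) s
    have := e2_le hb hψ (j + 1) s
    linarith
  have hz : ∀ n, ∫ s, (Ψ (past (j + 1) s) : ℂ) * dd (j + 1) (e n) s ∂κ = 0 := fun n =>
    zero_of_sets (U613.measurable_past Ω (j + 1))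
      (Integrable.of_bound (hdm _ (he n)).aestronglyMeasurable 2 (ae_of_all _ (hdb _ (he n))))
      (fun T hT => hp j n T hT) hΨ.1 hC
  have hΨm : Measurable (fun s : Sp Ω => (Ψ (past (j + 1) s) : ℂ)) :=
    Complex.measurable_ofReal.comp (hΨ.1.comp (U613.measurable_past Ω (j + 1)))
  have hlim : Tendsto (fun n => ∫ s, (Ψ (past (j + 1) s) : ℂ) * dd (j + 1) (e (u n)) s ∂κ)
      atTop (𝓝 (∫ s, (Ψ (past (j + 1) s) : ℂ) * dd (j + 1) φ s ∂κ)) := by
    refine tendsto_integral_of_dominated_convergence (fun _ => |C| * 2) ?_ ?_ ?_ ?_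
    · intro n
      exact (hΨm.mul (hdm _ (he _))).aestronglyMeasurable
    · exact integrable_const _
    · intro n
      refine ae_of_all _ fun s => ?_
      rw [norm_mul]
      apply mul_le_mul _ (hdb _ (he _) s) (norm_nonneg _) (abs_nonneg _)
      rw [Complex.norm_real, Real.norm_eq_abs]
      exact (hC _).trans (le_abs_self C)
    · refine ae_of_all _ fun s => ?_
      apply Tendsto.const_mul
      have t1 : ∀ l, Tendsto (fun n => (greenEnergy (Ω \ ((s l).1 : Set ℂ)) (e (u n)) : ℂ)) atTop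
          (𝓝 (greenEnergy (Ω \ ((s l).1 : Set ℂ)) φ : ℂ)) := fun l =>
        (Complex.continuous_ofReal.tendsto _).comp
          (tendsto_energy hR sdiff_subset hφ (fun n => he _) hu1)
      have t2 : ∀ l, Tendsto (fun n => (pr (s l).2 (e (u n)) : ℂ)) atTop
          (𝓝 (pr (s l).2 φ : ℂ)) := fun l =>
        (Complex.continuous_ofReal.tendsto _).comp (hu2 _)
      unfold dd
      apply Tendsto.sub
      · apply (Complex.continuous_exp.tendsto _).comp
        exact (((t2 _).sub (t2 _)).const_mul _).sub ((t1 _).div_const 2)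
      · apply (Complex.continuous_exp.tendsto _).comp
        exact (t1 _).neg.div_const 2
  have h0 : ∫ s, (Ψ (past (j + 1) s) : ℂ) * dd (j + 1) φ s ∂κ = 0 := by
    simp only [hz] at hlim
    exact tendsto_nhds_unique hlim tendsto_const_nhds |>.symm ▸ rfl
  have hΨb : ∀ s : Sp Ω, ‖(Ψ (past (j + 1) s) : ℂ)‖ ≤ |C| := by
    intro s
    rw [Complex.norm_real, Real.norm_eq_abs]
    exact (hC _).trans (le_abs_self C)
  have i1 : Integrable (fun s : Sp Ω => (Ψ (past (j + 1) s) : ℂ) *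
      SWR.wt (pr (s (j + 1 + 1)).2 φ - pr (s (j + 1)).2 φ)
        (greenEnergy (Ω \ (s (j + 1 + 1)).1) φ)) κ := by
    simp only [wt_eq]
    refine Integrable.of_bound (hΨm.mul (meas_e1 hb hφ (j + 1))).aestronglyMeasurable (|C| * 1)
      (ae_of_all _ fun s => ?_)
    rw [norm_mul]
    exact mul_le_mul (hΨb s) (e1_le hb hφ (j + 1) s) (norm_nonneg _) (abs_nonneg _)
  have i2 : Integrable (fun s : Sp Ω => (Ψ (past (j + 1) s) : ℂ) *
      Complex.exp (- greenEnergy (Ω \ (s (j + 1)).1) φ / 2)) κ := by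
    refine Integrable.of_bound (hΨm.mul (meas_e2 hb hφ (j + 1))).aestronglyMeasurable (|C| * 1)
      (ae_of_all _ fun s => ?_)
    rw [norm_mul]
    exact mul_le_mul (hΨb s) (e2_le hb hφ (j + 1) s) (norm_nonneg _) (abs_nonneg _)
  rw [← sub_eq_zero, ← integral_sub i1 i2, ← h0]
  congr 1
  funext s
  rw [dd_wt]
  ring

end Vale.Agent.P155.SW814
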