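import Vale.Agent.P155.SW814.Kg
import Vale.Agent.P155.SW733.K1e

/-!
# P155 (SW), block (6a): the second moment for the conditional laws given a function of the first
carpet
-/

namespace Vale.Agent.P155.SW814

open MeasureTheory ProbabilityTheory Set TopologicalSpace Filter Topology Uq NT730Y
open SW733 (SS tendsto_SS meas_SS SS_le SS_nonneg bdd_of_pr)

variable {Ω : Set ℂ}

/-- truncation -/
noncomputable def clp (M a : ℝ) : ℝ := max (-M) (min M a)

theorem abs_clp_le {M a : ℝ} (hM : 0 ≤ M) : |clp M a| ≤ M := by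
  unfold clp
  rw [abs_le]
  exact ⟨le_max_left _ _, max_le (by linarith) (min_le_left _ _)⟩

theorem clp_eq {M a : ℝ} (h : |a| ≤ M) : clp M a = a := by
  unfold clp
  rw [min_eq_right (abs_le.1 h).2, max_eq_right (abs_le.1 h).1]

theorem pr_abs_le {f : Fld Ω} (hf : ∀ᵐ z ∂(volume.restrict Ω : Measure ℂ), |f z| ≤ 1)
    {χ : ℂ → ℝ} (hχ : IsTest Ω χ) : |pr f χ| ≤ ∫ z, |χ z| := by
  have hi : Integrable χ := K1.test_integrable hχ
  unfold pr
  calc |∫ z in Ω, f z * χ z| ≤ ∫ z in Ω, |f z * χ z| := abs_integral_le_integral_abs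
    _ ≤ ∫ z in Ω, |χ z| := by
        refine integral_mono_of_nonneg (Eventually.of_forall fun z => abs_nonneg _)
          hi.abs.integrableOn ?_
        filter_upwards [hf] with z hz
        show |f z * χ z| ≤ |χ z|
        rw [abs_mul]
        exact mul_le_of_le_one_left (abs_nonneg _) hz
    _ ≤ ∫ z, |χ z| := setIntegral_le_integral hi.abs
        (Eventually.of_forall fun z => abs_nonneg (χ z))

/-- the difference of the two sides, truncated -/
noncomputable def DS (Ω : Set ℂ) (χ : ℂ → ℝ) (s : Sp Ω) : ℝ :=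
  (clp (∫ z, |χ z|) (pr (s 1).2 χ)) ^ 2 - SS Ω χ (s 1).1

theorem meas_car : Measurable (fun s : Sp Ω => (s 1).1) :=
  measurable_fst.comp (measurable_pi_apply 1)

theorem meas_pr1 {χ : ℂ → ℝ} (hχ : IsTest Ω χ) : Measurable (fun s : Sp Ω => pr (s 1).2 χ) :=
  (U613.measurable_pr hχ).comp (measurable_snd.comp (measurable_pi_apply 1))

theorem meas_DS (hΩ : IsOpen Ω) {χ : ℂ → ℝ} (hχ : IsTest Ω χ) : Measurable (DS Ω χ) := by
  unfold DS clp
  exact ((measurable_const.max (measurable_const.min (meas_pr1 hχ))).pow_const 2).sub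
    ((meas_SS hΩ hχ).comp meas_car)

theorem abs_DS_le (hΩ : IsOpen Ω) {χ : ℂ → ℝ} (hχ : IsTest Ω χ) (s : Sp Ω) :
    |DS Ω χ s| ≤ (∫ z, |χ z|) ^ 2 := by
  have hM : 0 ≤ ∫ z, |χ z| := integral_nonneg fun z => abs_nonneg _
  have h1 : (clp (∫ z, |χ z|) (pr (s 1).2 χ)) ^ 2 ≤ (∫ z, |χ z|) ^ 2 := by
    rw [← sq_abs]
    exact pow_le_pow_left₀ (abs_nonneg _) (abs_clp_le hM) 2
  have h2 := SS_le hΩ hχ (s 1).1
  have h3 := SS_nonneg Ω χ (s 1).1
  have h4 := sq_nonneg (clp (∫ z, |χ z|) (pr (s 1).2 χ))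
  unfold DS
  rw [abs_le]
  constructor <;> linarith

/-- the truncated difference computes the difference of the two integrals -/
theorem int_DS (hΩ : IsOpen Ω) {χ : ℂ → ℝ} (hχ : IsTest Ω χ) {μ : Measure (Sp Ω)}
    [IsProbabilityMeasure μ]
    (hμ : ∀ᵐ s ∂μ, ∀ᵐ z ∂(volume.restrict Ω : Measure ℂ), |(s 1).2 z| ≤ 1)
    {β : NonemptyCompacts ℂ → ℝ} (hβ : BM β) :
    ∫ s, β (s 1).1 * DS Ω χ s ∂μ =
      (∫ s, β (s 1).1 * (pr (s 1).2 χ) ^ 2 ∂μ) - ∫ s, β (s 1).1 * SS Ω χ (s 1).1 ∂μ := by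
  obtain ⟨hβm, C, hC⟩ := hβ
  have hM : 0 ≤ ∫ z, |χ z| := integral_nonneg fun z => abs_nonneg _
  have hβm' : Measurable (fun s : Sp Ω => β (s 1).1) := hβm.comp meas_car
  have i1 : Integrable (fun s : Sp Ω => β (s 1).1 * (pr (s 1).2 χ) ^ 2) μ := by
    refine Integrable.of_bound (C := |C| * (∫ z, |χ z|) ^ 2)
      (hβm'.mul ((meas_pr1 hχ).pow_const 2)).aestronglyMeasurable ?_
    filter_upwards [hμ] with s hs
    rw [Real.norm_eq_abs, abs_mul, abs_pow]
    have h1 := pr_abs_le hs hχ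
    have h2 : |β (s 1).1| ≤ |C| := (hC _).trans (le_abs_self C)
    gcongr
  have i2 : Integrable (fun s : Sp Ω => β (s 1).1 * SS Ω χ (s 1).1) μ := by
    refine Integrable.of_bound (C := |C| * (∫ z, |χ z|) ^ 2)
      (hβm'.mul ((meas_SS hΩ hχ).comp meas_car)).aestronglyMeasurable
      (Eventually.of_forall fun s => ?_)
    rw [Real.norm_eq_abs, abs_mul, abs_of_nonneg (SS_nonneg Ω χ (s 1).1)]
    have h2 : |β (s 1).1| ≤ |C| := (hC _).trans (le_abs_self C)
    exact mul_le_mul h2 (SS_le hΩ hχ (s 1).1) (SS_nonneg Ω χ (s 1).1) (abs_nonneg _)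
  rw [← integral_sub i1 i2]
  refine integral_congr_ae ?_
  filter_upwards [hμ] with s hs
  unfold DS
  rw [clp_eq (pr_abs_le hs hχ)]
  ring

/-- weakly convergent sequences of test functions are bounded in `L¹` -/
theorem l1_bdd (hΩ : IsOpen Ω) (hb : Bornology.IsBounded Ω) {χ : ℕ → ℂ → ℝ} {χ0 : ℂ → ℝ}
    (hχ : ∀ n, IsTest Ω (χ n))
    (h : ∀ f : Fld Ω, Tendsto (fun n => pr f (χ n)) atTop (𝓝 (pr f χ0))) :
    ∃ C, ∀ n, ∫ z, |χ n z| ≤ C := by
  obtain ⟨C, hC⟩ := bdd_of_pr hχ h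
  refine ⟨volume.real Ω + C ^ 2, fun n => ?_⟩
  set f : Fld Ω := (Vale.Agent.P155.Uq.memLp_test (Ω := Ω) (hχ n)).toLp (χ n) with hf
  have hvol : volume Ω ≠ ⊤ := (hb.measure_lt_top (μ := volume)).ne
  have hfin : IsFiniteMeasure (volume.restrict Ω : Measure ℂ) :=
    ⟨by rw [Measure.restrict_apply_univ]; exact hb.measure_lt_top⟩
  have e1 : pr f (χ n) = ‖f‖ ^ 2 := by
    rw [Vale.Agent.P155.Uq.pr_eq_inner f (hχ n), ← hf, real_inner_self_eq_norm_sq]
  have e2 : pr f (χ n) = ∫ z in Ω, (χ n z) ^ 2 := by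
    unfold pr
    refine integral_congr_ae ?_
    filter_upwards [(Vale.Agent.P155.Uq.memLp_test (Ω := Ω) (hχ n)).coeFn_toLp] with z hz
    rw [hf, hz]
    ring
  have hi : Integrable (χ n) := K1.test_integrable (hχ n)
  have hi2 : Integrable (fun z => (χ n z) ^ 2) (volume.restrict Ω : Measure ℂ) := by
    have := ((Vale.Agent.P155.Uq.memLp_test (Ω := Ω) (hχ n)).integrable_sq)
    exact this
  have e3 : ∫ z, |χ n z| = ∫ z in Ω, |χ n z| := by
    have h0 : ∀ z, z ∉ Ω → |χ n z| = 0 := fun z hz => by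
      have h1 : χ n z = 0 := K1.test_zero_off (hχ n) hz
      rw [h1, _root_.abs_zero]
    exact (setIntegral_eq_integral_of_forall_compl_eq_zero h0).symm
  rw [e3]
  calc ∫ z in Ω, |χ n z| ≤ ∫ z in Ω, ((1 : ℝ) + (χ n z) ^ 2) := by
        refine integral_mono hi.abs.integrableOn ((integrable_const _).add hi2) fun z => ?_
        show |χ n z| ≤ 1 + (χ n z) ^ 2
        nlinarith [sq_abs (χ n z), sq_nonneg (|χ n z| - 1), abs_nonneg (χ n z)]
    _ = volume.real Ω + ∫ z in Ω, (χ n z) ^ 2 := by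
        rw [integral_add (integrable_const _) hi2, integral_const, smul_eq_mul, mul_one,
          measureReal_restrict_apply_univ]
    _ ≤ volume.real Ω + C ^ 2 := by
        rw [← e2, e1]
        gcongr
        exact hC n

/-- **(K4c)** the second moment for the conditional laws -/
theorem second_kap (hΩ : IsOpen Ω) (hb : Bornology.IsBounded Ω) {Q : Measure (Sp Ω)}
    [IsProbabilityMeasure Q] (hQ : Canon Ω Q) {h : NonemptyCompacts ℂ → ℕ → ℝ}
    (hh : Measurable h)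
    (h2 : ∀ χ, IsTest Ω χ → ∀ β : NonemptyCompacts ℂ → ℝ, BM β →
      ∫ s, β (s 1).1 * (pr (s 1).2 χ) ^ 2 ∂Q = ∫ s, β (s 1).1 * SS Ω χ (s 1).1 ∂Q) :
    ∀ᵐ y ∂(Q.map (fun s => h (s 1).1)), ∀ χ, IsTest Ω χ → ∀ β : NonemptyCompacts ℂ → ℝ, BM β →
      ∫ s, β (s 1).1 * (pr (s 1).2 χ) ^ 2 ∂(SW924.kap Q (fun s => h (s 1).1) y) =
        ∫ s, β (s 1).1 * SS Ω χ (s 1).1 ∂(SW924.kap Q (fun s => h (s 1).1) y) := by
  have hY : Measurable (fun s : Sp Ω => h (s 1).1) := hh.comp meas_car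
  obtain ⟨R, hR⟩ := Xe.exists_isR hΩ hb
  obtain ⟨e, he, hd⟩ := exists_dense (R := R) Ω
  have hbd : ∀ᵐ s ∂Q, ∀ᵐ z ∂(volume.restrict Ω : Measure ℂ), |(s 1).2 z| ≤ 1 := by
    filter_upwards [hQ.bdd] with s hs
    have := hs 1
    simpa using this
  have h1 : ∀ᵐ y ∂(Q.map (fun s => h (s 1).1)), ∀ n, ∀ T : Set (NonemptyCompacts ℂ),
      MeasurableSet T → ∫ s in (fun s : Sp Ω => (s 1).1) ⁻¹' T, ((DS Ω (e n) s : ℝ) : ℂ)
        ∂(SW924.kap Q (fun s => h (s 1).1) y) = 0 := by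
    rw [ae_all_iff]
    intro n
    refine SW924.kap_zero (C := (∫ z, |e n z|) ^ 2) hY meas_car
      (Complex.measurable_ofReal.comp (meas_DS hΩ (he n))) ?_ ?_
    · intro s
      rw [Complex.norm_real, Real.norm_eq_abs]
      exact abs_DS_le hΩ (he n) s
    · intro B hB T hT
      have hBT : MeasurableSet (h ⁻¹' B ∩ T) := (hh hB).inter hT
      have e1 : (fun s : Sp Ω => h (s 1).1) ⁻¹' B ∩ (fun s : Sp Ω => (s 1).1) ⁻¹' T =
          (fun s : Sp Ω => (s 1).1) ⁻¹' (h ⁻¹' B ∩ T) := rfl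
      rw [e1, integral_complex_ofReal]
      have hβ : BM ((h ⁻¹' B ∩ T).indicator fun _ => (1 : ℝ)) :=
        ⟨measurable_const.indicator hBT, 1, fun y => by
          by_cases hy : y ∈ h ⁻¹' B ∩ T
          · rw [indicator_of_mem hy]; simp
          · rw [indicator_of_notMem hy]; simp⟩
      have h3 := int_DS hΩ (he n) hbd hβ
      rw [h2 _ (he n) _ hβ, sub_self] at h3
      rw [← integral_indicator (meas_car hBT), ← Complex.ofReal_zero, ← h3]
      congr 2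
      funext s
      by_cases hs : (s 1).1 ∈ h ⁻¹' B ∩ T
      · rw [indicator_of_mem hs, indicator_of_mem (show s ∈ (fun s : Sp Ω => (s 1).1) ⁻¹'
          (h ⁻¹' B ∩ T) from hs), one_mul]
      · rw [indicator_of_notMem hs, indicator_of_notMem (show s ∉ (fun s : Sp Ω => (s 1).1) ⁻¹'
          (h ⁻¹' B ∩ T) from hs), zero_mul]
  filter_upwards [h1, SW924.ae_kap hY hbd] with y hy hbdy χ hχ β hβ
  obtain ⟨u, -, hu2⟩ := hd χ hχ
  obtain ⟨hβm, C, hC⟩ := hβ
  set κ := SW924.kap Q (fun s => h (s 1).1) y with hκ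
  have hz : ∀ n, ∫ s, β (s 1).1 * (pr (s 1).2 (e n)) ^ 2 ∂κ =
      ∫ s, β (s 1).1 * SS Ω (e n) (s 1).1 ∂κ := by
    intro n
    have h3 := zero_of_sets (μ := κ) (P := fun s : Sp Ω => (s 1).1) meas_car
      (F := fun s => ((DS Ω (e n) s : ℝ) : ℂ))
      (Integrable.of_bound (Complex.measurable_ofReal.comp (meas_DS hΩ (he n))).aestronglyMeasurable
        ((∫ z, |e n z|) ^ 2) (ae_of_all _ fun s => by
          rw [Complex.norm_real, Real.norm_eq_abs]
          exact abs_DS_le hΩ (he n) s)) (fun T hT => hy n T hT) hβm hC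
    have h4 : ∫ s, β (s 1).1 * DS Ω (e n) s ∂κ = 0 := by
      have e5 : ∀ s : Sp Ω, ((β (s 1).1 : ℝ) : ℂ) * ((DS Ω (e n) s : ℝ) : ℂ) =
          ((β (s 1).1 * DS Ω (e n) s : ℝ) : ℂ) := fun s => by push_cast; rfl
      simp only [e5] at h3
      rw [integral_complex_ofReal] at h3
      exact_mod_cast h3
    rw [int_DS hΩ (he n) hbdy ⟨hβm, C, hC⟩] at h4
    exact sub_eq_zero.1 h4
  obtain ⟨M, hM⟩ := l1_bdd hΩ hb (fun n => he (u n)) hu2
  have hM0 : 0 ≤ M := le_trans (integral_nonneg fun z => abs_nonneg _) (hM 0)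
  have hβm' : Measurable (fun s : Sp Ω => β (s 1).1) := hβm.comp meas_car
  have hβb : ∀ s : Sp Ω, |β (s 1).1| ≤ |C| := fun s => (hC _).trans (le_abs_self C)
  have l1 : Tendsto (fun n => ∫ s, β (s 1).1 * (pr (s 1).2 (e (u n))) ^ 2 ∂κ) atTop
      (𝓝 (∫ s, β (s 1).1 * (pr (s 1).2 χ) ^ 2 ∂κ)) := by
    refine tendsto_integral_of_dominated_convergence (fun _ => |C| * M ^ 2)
      (fun n => (hβm'.mul ((meas_pr1 (he _)).pow_const 2)).aestronglyMeasurable)
      (integrable_const _) ?_ ?_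
    · intro n
      filter_upwards [hbdy] with s hs
      rw [Real.norm_eq_abs, abs_mul, abs_pow]
      have h3 := (pr_abs_le hs (he (u n))).trans (hM n)
      have h4 := hβb s
      gcongr
    · exact ae_of_all _ fun s => ((hu2 _).pow 2).const_mul _
  have l2 : Tendsto (fun n => ∫ s, β (s 1).1 * SS Ω (e (u n)) (s 1).1 ∂κ) atTop
      (𝓝 (∫ s, β (s 1).1 * SS Ω χ (s 1).1 ∂κ)) := by
    refine tendsto_integral_of_dominated_convergence (fun _ => |C| * M ^ 2)
      (fun n => (hβm'.mul ((meas_SS hΩ (he _)).comp meas_car)).aestronglyMeasurable)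
      (integrable_const _) ?_ ?_
    · intro n
      refine ae_of_all _ fun s => ?_
      rw [Real.norm_eq_abs, abs_mul, abs_of_nonneg (SS_nonneg Ω _ (s 1).1)]
      have h3 := SS_le hΩ (he (u n)) (s 1).1
      have h5 : (∫ z, |e (u n) z|) ^ 2 ≤ M ^ 2 :=
        pow_le_pow_left₀ (integral_nonneg fun z => abs_nonneg _) (hM n) 2
      have h4 := hβb s
      have h6 := SS_nonneg Ω (e (u n)) (s 1).1
      exact mul_le_mul h4 (h3.trans h5) h6 (abs_nonneg _)
    · exact ae_of_all _ fun s => (tendsto_SS hΩ hb (fun n => he (u n)) hu2 _).const_mul _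
  simp only [hz] at l1
  exact tendsto_nhds_unique l1 l2

end Vale.Agent.P155.SW814
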