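import Vale.Agent.P155.SW814.Seq
import Vale.Agent.P155.QQ.Asm

/-!
# P155, (SW), block (3), (L1): the full height against functions of the first gasket
-/

namespace Vale.Agent.P155.SW814

open Vale.Agent.P155 MeasureTheory Filter Topology TopologicalSpace K

section disc

variable {Ω : Set ℂ} (S : TempApprox Ω)

theorem heightInt_zero {δ : ℝ} {a : ℂ} {V : Finset Pt} {ω : Conf} (hω : ω ∈ DD V) (φ : ℂ → ℝ) :
    heightInt δ a 0 ω φ = 0 := by
  unfold heightInt
  rw [L.hk_zero_eq hω]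
  simp

/-- the discrete form of (L1) -/
theorem disc_L1 (hΩ : IsOpen Ω) (hb : Bornology.IsBounded Ω) {φ : ℂ → ℝ} (hφ : K.IsTest Ω φ)
    {ε : ℝ} (hε : 0 < ε) : ∀ᶠ n in atTop, ∀ F : Conf → ℂ, (∀ ω ∈ DD (S.T n).V, ‖F ω‖ ≤ 1) →
    (∀ ω ∈ DD (S.T n).V, ∀ ω' ∈ DD (S.T n).V, AgreeOff (Fk (S.T n).V 1 ω) ω ω' → F ω' = F ω) →
    ‖Ex (S.T n).V (fun ω => F ω * Complex.exp (Complex.I * (Real.sqrt (Real.pi / 2) : ℝ) *
        (hf ω (phin (S.δ n) (S.a n) φ) : ℝ))) -
      Ex (S.T n).V (fun ω => F ω * Complex.exp (Complex.I * (Real.sqrt (Real.pi / 2) : ℝ) *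
        (heightInt (S.δ n) (S.a n) 1 ω φ : ℝ)) * (Real.exp (-(1 / 2) * pe S φ 1 n ω) : ℝ))‖
      ≤ ε := by
  set θ := Real.sqrt (Real.pi / 2) with hθ
  have hθ0 : 0 ≤ θ := Real.sqrt_nonneg _
  filter_upwards [jmain_seq S hΩ j_main' hb 1 hφ (ε := ε / 2) (by positivity),
    disc_close S 0 hφ.smooth.continuous hφ.cpt (ε := ε / (2 * (θ + 1))) (by positivity)]
    with n hj hcl F hF hFm
  have hd := S.pos n
  set φn := phin (S.δ n) (S.a n) φ with hφn
  have hfs : J.FS φn := by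
    have h0 : Fin0 (res (S.δ n) (S.a n) φ) := fin0_res hd (S.a n) hφ.cpt
    refine h0.subset fun y hy => ?_
    exact right_ne_zero_of_mul hy
  set D : Conf → ℝ := fun ω => ∑ᶠ x : Pt, φn x * ((hk (0 + 1) ω x : ℝ) - hk 0 ω x) with hD
  have hsplit : ∀ ω ∈ DD (S.T n).V, hf ω φn = D ω + hkf 1 ω φn := by
    intro ω hω
    simp only [hD]
    unfold hkf hf
    rw [← finsum_add_distrib (hfs.mul_right _) (hfs.mul_right _)]
    refine finsum_congr (fun x => ?_)
    rw [L.hk_zero_eq hω]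
    simp only [zero_add, Pi.zero_apply, Int.cast_zero, sub_zero]
    ring
  have hmeas : ∀ ω ∈ DD (S.T n).V, ∀ ω' ∈ DD (S.T n).V, AgreeOff (Fk (S.T n).V 1 ω) ω ω' →
      F ω' * Complex.exp (Complex.I * θ * D ω') = F ω * Complex.exp (Complex.I * θ * D ω) := by
    intro ω hω ω' hω' hag
    have e1 := (L.l_hk (S.T n) 1 ω hω ω' hω' hag).2.1
    have e0 : hk 0 ω' = hk 0 ω := by rw [L.hk_zero_eq hω, L.hk_zero_eq hω']
    rw [hFm ω hω ω' hω' hag]
    simp only [hD, zero_add]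
    rw [e1, e0]
  have hE : Ex (S.T n).V (fun ω => F ω * Complex.exp (Complex.I * θ * (hf ω φn : ℝ))) =
      Ex (S.T n).V (fun ω => (F ω * Complex.exp (Complex.I * θ * D ω)) *
      cEx (S.T n).V (Fk (S.T n).V 1) (fun ω' => Complex.exp (Complex.I * θ * hkf 1 ω' φn)) ω) := by
    rw [J.Ex_mul_cEx (L.l_expl (S.T n) 1) hmeas]
    refine J.avg_congr (fun ω hω => ?_)
    have e : Complex.exp (Complex.I * θ * (hf ω φn : ℝ)) = Complex.exp (Complex.I * θ * D ω) *
        Complex.exp (Complex.I * θ * hkf 1 ω φn) := by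
      rw [← Complex.exp_add, hsplit ω hω]
      congr 1
      push_cast
      ring
    rw [e]; ring
  have hu := hj (fun ω => uG S φ 1 n ω) (fun ω _ => uG_spec S φ 1 n ω)
  have n1 : ‖Ex (S.T n).V (fun ω => F ω * Complex.exp (Complex.I * θ * (hf ω φn : ℝ))) -
      Ex (S.T n).V (fun ω => (F ω * Complex.exp (Complex.I * θ * D ω)) *
        (Real.exp (-(1 / 2) * pe S φ 1 n ω) : ℝ))‖ ≤ ε / 2 := by
    rw [hE, ← Ex_sub]
    refine le_trans ?_ hu
    refine le_trans (J.norm_avg_le _ _) ?_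
    apply J.Ex_mono
    intro ω hω
    have e : (F ω * Complex.exp (Complex.I * θ * D ω)) *
        cEx (S.T n).V (Fk (S.T n).V 1) (fun ω' => Complex.exp (Complex.I * θ * hkf 1 ω' φn)) ω -
        (F ω * Complex.exp (Complex.I * θ * D ω)) * (Real.exp (-(1 / 2) * pe S φ 1 n ω) : ℝ) =
        (F ω * Complex.exp (Complex.I * θ * D ω)) *
        (cEx (S.T n).V (Fk (S.T n).V 1) (fun ω' => Complex.exp (Complex.I * θ * hkf 1 ω' φn)) ω -
          (Real.exp (-(1 / 2) * pe S φ 1 n ω) : ℝ)) := by ring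
    rw [e, norm_mul, norm_mul, J.norm_exp_I, mul_one]
    exact mul_le_of_le_one_left (norm_nonneg _) (hF ω hω)
  have n2 : ‖Ex (S.T n).V (fun ω => (F ω * Complex.exp (Complex.I * θ * D ω)) *
        (Real.exp (-(1 / 2) * pe S φ 1 n ω) : ℝ)) -
      Ex (S.T n).V (fun ω => F ω * Complex.exp (Complex.I * θ *
        (heightInt (S.δ n) (S.a n) 1 ω φ : ℝ)) * (Real.exp (-(1 / 2) * pe S φ 1 n ω) : ℝ))‖
      ≤ ε / 2 := by
    rw [← Ex_sub]
    apply norm_Ex_le (by positivity)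
    intro ω hω
    set X := heightInt (S.δ n) (S.a n) 1 ω φ with hX
    have e1 : (F ω * Complex.exp (Complex.I * θ * D ω)) *
        (Real.exp (-(1 / 2) * pe S φ 1 n ω) : ℝ) -
        F ω * Complex.exp (Complex.I * θ * (X : ℝ)) *
        (Real.exp (-(1 / 2) * pe S φ 1 n ω) : ℝ) =
        F ω * (Complex.exp (Complex.I * ((θ * D ω : ℝ) : ℂ)) -
          Complex.exp (Complex.I * ((θ * X : ℝ) : ℂ))) *
        (Real.exp (-(1 / 2) * pe S φ 1 n ω) : ℝ) := by
      push_cast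
      rw [mul_assoc Complex.I, mul_assoc Complex.I]
      ring
    have b0 : |D ω - X| ≤ ε / (2 * (θ + 1)) := by
      have h1 := hcl ω hω
      rw [heightInt_zero hω, sub_zero] at h1
      exact h1
    rw [e1, norm_mul, norm_mul]
    have b1 := hF ω hω
    have b2 := exp_diff_le (θ * D ω) (θ * X)
    have b3 : ‖((Real.exp (-(1 / 2) * pe S φ 1 n ω) : ℝ) : ℂ)‖ ≤ 1 := by
      rw [Complex.norm_real, Real.norm_of_nonneg (Real.exp_pos _).le, Real.exp_le_one_iff]
      have := pe_nonneg S φ 1 n ω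
      linarith
    have b4 : |θ * D ω - θ * X| ≤ ε / 2 := by
      rw [← mul_sub, abs_mul, abs_of_nonneg hθ0]
      calc θ * |D ω - X| ≤ θ * (ε / (2 * (θ + 1))) := by gcongr
        _ = (ε / 2) * (θ / (θ + 1)) := by field_simp
        _ ≤ (ε / 2) * 1 := by
            gcongr
            rw [div_le_one (by positivity)]
            linarith
        _ = _ := mul_one _
    calc _ ≤ 1 * (ε / 2) * 1 := by
          gcongr
          exact b2.trans b4
      _ = _ := by ring
  calc _ ≤ ε / 2 + ε / 2 := (norm_sub_le_norm_sub_add_norm_sub _ _ _).trans (add_le_add n1 n2)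
    _ = ε := by ring

end disc

/-- all signed carpets are limits of the gaskets -/
theorem limData {Ω : Set ℂ} (ho : IsOpen Ω) (hb : Bornology.IsBounded Ω) (hne : Ω.Nonempty)
    (hsc : SimplyConnectedSpace Ω) (S : TempApprox Ω) {Θ : Type} [MeasurableSpace Θ]
    {P : Measure Θ} [hP : IsProbabilityMeasure P] {G : ℕ → Θ → NonemptyCompacts ℂ}
    {H : ℕ → Θ → (ℂ → ℝ) → ℝ} (h : Vale.Agent.P155.IsSignedCarpets P Ω G H) :
    LimData S (fun n => n) P G H where
  tends := tendsto_id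
  mG k := (h.meas k).1
  mH k φ hφ := ((h.meas k).2 φ hφ).1
  lim k m χ hχ F hF hFb :=
    (QQ.full Ω ho hb hne hsc S).2 Θ inferInstance P G H hP h k m χ hχ F hF hFb

/-- **(L1)** -/
theorem L1 {Ω : Set ℂ} (ho : IsOpen Ω) (hb : Bornology.IsBounded Ω) (hne : Ω.Nonempty)
    (hsc : SimplyConnectedSpace Ω) (S : TempApprox Ω) {Θ : Type} [MeasurableSpace Θ]
    {P : Measure Θ} [IsProbabilityMeasure P] {G : ℕ → Θ → NonemptyCompacts ℂ}
    {H : ℕ → Θ → (ℂ → ℝ) → ℝ} (h : Vale.Agent.P155.IsSignedCarpets P Ω G H) {φ : ℂ → ℝ}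
    (hφ : Vale.Agent.P155.IsTest Ω φ) {g : NonemptyCompacts ℂ → ℝ} (hg : Continuous g)
    (hgb : ∃ C, ∀ K, |g K| ≤ C) :
    AEStronglyMeasurable (fun x => (g (G 1 x) : ℂ) * Complex.exp (Complex.I *
        (Real.sqrt (Real.pi / 2) : ℝ) * H 1 x φ - greenEnergy (Ω \ G 1 x) φ / 2)) P ∧
    Tendsto (fun n => Ex (S.T n).V (fun ω =>
      (g (toNC (gasket (S.δ n) (S.a n) (S.T n) 1 ω)) : ℂ) *
        Complex.exp (Complex.I * (Real.sqrt (Real.pi / 2) : ℝ) *
          (hf ω (phin (S.δ n) (S.a n) φ) : ℝ)))) atTop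
      (𝓝 (∫ x, (g (G 1 x) : ℂ) * Complex.exp (Complex.I * (Real.sqrt (Real.pi / 2) : ℝ) *
        H 1 x φ - greenEnergy (Ω \ G 1 x) φ / 2) ∂P)) := by
  have L := limData ho hb hne hsc S h
  have hφ' := isTest_iff.1 hφ
  obtain ⟨C, hC⟩ := hgb
  set C' := |C| + 1 with hC'
  have hC'pos : 0 < C' := by positivity
  have hCC : ∀ y, |g y| ≤ C' := fun y => (hC y).trans ((le_abs_self C).trans (by linarith))
  set θ := Real.sqrt (Real.pi / 2) with hθ
  set χ : Fin 1 → ℂ → ℝ := fun _ => φ with hχ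
  have hχt : ∀ i, Vale.Agent.P155.IsTest Ω (χ i) := fun _ => hφ
  obtain ⟨hm, hT, -⟩ := L.ecm 2 hχt
    (Φn := fun n ω => (g (toNC (gasket (S.δ n) (S.a n) (S.T n) 1 ω)) : ℂ) *
      Complex.exp (Complex.I * θ * (heightInt (S.δ n) (S.a n) 1 ω φ : ℝ) -
        (pe S φ 1 n ω : ℝ) / 2))
    (Φ := fun x => (g (G 1 x) : ℂ) * Complex.exp (Complex.I * θ * H 1 x φ -
      greenEnergy (Ω \ G 1 x) φ / 2)) (M := C') (by
      intro j ω _
      rw [norm_mul, Complex.norm_real, Real.norm_eq_abs, Complex.norm_exp]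
      have h1 : (Complex.I * θ * (heightInt (S.δ j) (S.a j) 1 ω φ : ℝ)
          - (pe S φ 1 j ω : ℝ) / 2).re = - pe S φ 1 j ω / 2 := by
        simp
        ring
      rw [h1]
      have h2 : Real.exp (- pe S φ 1 j ω / 2) ≤ 1 := by
        rw [Real.exp_le_one_iff]
        have := pe_nonneg S φ 1 j ω
        linarith
      have h3 := hCC (toNC (gasket (S.δ j) (S.a j) (S.T j) 1 ω))
      have h5 := (Real.exp_pos (- pe S φ 1 j ω / 2)).le
      nlinarith [abs_nonneg (g (toNC (gasket (S.δ j) (S.a j) (S.T j) 1 ω)))]) (by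
      filter_upwards with x j ω hj hω hY
      have t0 : Tendsto (fun i => toNC (gasket (S.δ (j i)) (S.a (j i)) (S.T (j i)) 1 (ω i))) atTop
          (𝓝 (G 1 x)) :=
        ((continuous_apply (1 : Fin 2)).comp continuous_fst).tendsto _ |>.comp hY
      have t1 := pe_tendsto ho hb 1 hφ' hj hω t0
      have t2 := (hg.tendsto _).comp t0
      have t3 : Tendsto (fun i => heightInt (S.δ (j i)) (S.a (j i)) 1 (ω i) φ) atTop
          (𝓝 (H 1 x φ)) := by
        have c3 : Continuous (fun y : (Fin 2 → NonemptyCompacts ℂ) × (Fin 2 → Fin 1 → ℝ) =>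
          y.2 1 0) := by fun_prop
        exact (c3.tendsto _).comp hY
      exact ((Complex.continuous_ofReal.tendsto _).comp t2).mul
        ((Complex.continuous_exp.tendsto _).comp
          ((((Complex.continuous_ofReal.tendsto _).comp t3).const_mul
            (Complex.I * (θ : ℝ))).sub
            (((Complex.continuous_ofReal.tendsto _).comp t1).div_const 2))))
  refine ⟨hm, ?_⟩
  have hdiff : Tendsto (fun n => Ex (S.T n).V (fun ω =>
      (g (toNC (gasket (S.δ n) (S.a n) (S.T n) 1 ω)) : ℂ) *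
        Complex.exp (Complex.I * θ * (hf ω (phin (S.δ n) (S.a n) φ) : ℝ))) -
      Ex (S.T n).V (fun ω => (g (toNC (gasket (S.δ n) (S.a n) (S.T n) 1 ω)) : ℂ) *
      Complex.exp (Complex.I * θ * (heightInt (S.δ n) (S.a n) 1 ω φ : ℝ) -
        (pe S φ 1 n ω : ℝ) / 2))) atTop (𝓝 0) := by
    rw [Metric.tendsto_nhds]
    intro ε hε
    filter_upwards [disc_L1 S ho hb hφ' (ε := ε / (2 * C')) (by positivity)] with n hn
    set Ft : Conf → ℂ := fun ω => ((g (toNC (gasket (S.δ n) (S.a n) (S.T n) 1 ω)) / C' : ℝ) : ℂ)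
      with hFt
    have h1 := hn Ft (by
      intro ω _
      rw [hFt]
      simp only [Complex.norm_real, Real.norm_eq_abs]
      rw [abs_div, abs_of_pos hC'pos, div_le_one hC'pos]
      exact hCC _) (by
      intro ω hω ω' hω' hA
      rw [hFt]
      simp only
      rw [KConn.gasket_meas _ _ hω hω' le_rfl hA])
    have e1 : Ex (S.T n).V (fun ω => (g (toNC (gasket (S.δ n) (S.a n) (S.T n) 1 ω)) : ℂ) *
        Complex.exp (Complex.I * θ * (hf ω (phin (S.δ n) (S.a n) φ) : ℝ))) =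
        (C' : ℂ) * Ex (S.T n).V (fun ω => Ft ω * Complex.exp (Complex.I * θ *
          (hf ω (phin (S.δ n) (S.a n) φ) : ℝ))) := by
      rw [← Ex_const_mul]
      congr 1
      funext ω
      rw [hFt]
      simp only
      push_cast
      have : (C' : ℂ) ≠ 0 := by exact_mod_cast hC'pos.ne'
      field_simp
    have e2 : Ex (S.T n).V (fun ω => (g (toNC (gasket (S.δ n) (S.a n) (S.T n) 1 ω)) : ℂ) *
        Complex.exp (Complex.I * θ * (heightInt (S.δ n) (S.a n) 1 ω φ : ℝ) -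
        (pe S φ 1 n ω : ℝ) / 2)) =
        (C' : ℂ) * Ex (S.T n).V (fun ω => Ft ω * Complex.exp (Complex.I * θ *
          (heightInt (S.δ n) (S.a n) 1 ω φ : ℝ)) * (Real.exp (-(1 / 2) * pe S φ 1 n ω) : ℝ)) := by
      rw [← Ex_const_mul]
      congr 1
      funext ω
      have e5 : Complex.exp (Complex.I * θ * (heightInt (S.δ n) (S.a n) 1 ω φ : ℝ) -
          (pe S φ 1 n ω : ℝ) / 2) =
          Complex.exp (Complex.I * θ * (heightInt (S.δ n) (S.a n) 1 ω φ : ℝ)) *
          (Real.exp (-(1 / 2) * pe S φ 1 n ω) : ℝ) := by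
        rw [sub_eq_add_neg, Complex.exp_add]
        congr 1
        rw [Complex.ofReal_exp]
        congr 1
        push_cast
        ring
      rw [e5, hFt]
      simp only
      push_cast
      have : (C' : ℂ) ≠ 0 := by exact_mod_cast hC'pos.ne'
      field_simp
    rw [dist_zero_right, e1, e2, ← mul_sub, norm_mul, Complex.norm_real,
      Real.norm_of_nonneg hC'pos.le]
    calc _ ≤ C' * (ε / (2 * C')) := by gcongr
      _ = ε / 2 := by field_simp
      _ < ε := by linarith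
  have := hdiff.add hT
  simpa using this

end Vale.Agent.P155.SW814
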