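import Vale.Agent.P155.K.Final
import Vale.Agent.P155.K.GFF

/-!
# P155, (SW), block (3): scales along an approximation, `J_main` along an approximation
-/

namespace Vale.Agent.P155.SW814

open Vale.Agent.P155 MeasureTheory Filter Topology TopologicalSpace K

variable {Ω : Set ℂ} (S : TempApprox Ω)

/-- the common scales `R n ~ A / δ n` -/
theorem seq_data (hΩ : IsOpen Ω) (hb : Bornology.IsBounded Ω) :
    ∃ (A : ℝ) (R : ℕ → ℕ), 0 < A ∧ Tendsto (fun n => (R n : ℝ)) atTop atTop ∧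
      (∀ᶠ n in atTop, 1 ≤ R n ∧ A ≤ S.δ n * R n ∧ S.δ n * R n ≤ A + 1 ∧
        Skel.Fits (S.T n) (R n)) ∧
      ∀ φ, K.IsTest Ω φ → ∃ C0 : ℝ, 0 < C0 ∧ ∀ᶠ n in atTop,
        IsBump (0, 0) (R n) (C0 / (R n : ℝ) ^ 2) (phin (S.δ n) (S.a n) φ) ∧
        IsBump (0, 0) (R n) C0 (res (S.δ n) (S.a n) φ) ∧
        ∀ y, φ (pos (S.δ n) (S.a n) y) ≠ 0 → (R n : ℝ) ≤ C0 * dF (S.T n).faceSet y := by
  obtain ⟨ϱ1, hϱ10, hϱ1⟩ := bounded_face S hb
  obtain ⟨ϱ2', hϱ2'⟩ := hb.subset_closedBall (0 : ℂ)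
  set ϱ2 := |ϱ2'| + 1 with hϱ2d
  have hϱ20 : 0 < ϱ2 := by positivity
  obtain ⟨Ca, hCa⟩ := S.bdd
  have hCa0 : 0 ≤ Ca := (norm_nonneg _).trans (hCa 0)
  set A := ϱ1 + ϱ2 + Ca with hA
  have hApos : 0 < A := by positivity
  set R : ℕ → ℕ := fun n => ⌈A / S.δ n⌉₊ with hR
  have hRtop : Tendsto (fun n => (R n : ℝ)) atTop atTop := by
    have h1 : Tendsto (fun n => A / S.δ n) atTop atTop := by
      have h2 : Tendsto (fun n => (S.δ n)⁻¹) atTop atTop :=
        tendsto_inv_nhdsGT_zero.comp (tendsto_nhdsWithin_iff.2 ⟨S.mesh,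
          Eventually.of_forall (fun n => S.pos n)⟩)
      exact h2.const_mul_atTop hApos
    exact tendsto_atTop_mono (fun n => Nat.le_ceil _) h1
  have hd1 : ∀ᶠ n in atTop, S.δ n < min 1 A := (tendsto_order.1 S.mesh).2 _ (by positivity)
  have hRR : ∀ᶠ n in atTop, 1 ≤ R n ∧ A ≤ S.δ n * R n ∧ S.δ n * R n ≤ A + 1 ∧
      Skel.Fits (S.T n) (R n) := by
    filter_upwards [hϱ1, hd1] with n hface hdn
    have hd := S.pos n
    have hd1' : S.δ n < 1 := hdn.trans_le (min_le_left _ _)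
    have hRge : A / S.δ n ≤ R n := Nat.le_ceil _
    refine ⟨?_, ?_, ?_, ?_⟩
    · apply Nat.one_le_iff_ne_zero.2
      have : 0 < A / S.δ n := by positivity
      exact (Nat.ceil_pos.2 this).ne'
    · rw [div_le_iff₀ hd] at hRge
      linarith
    · have h1 := (Nat.ceil_lt_add_one (a := A / S.δ n) (by positivity)).le
      calc S.δ n * R n ≤ S.δ n * (A / S.δ n + 1) := by gcongr
        _ = A + S.δ n := by field_simp
        _ ≤ A + 1 := by linarith
    · intro y hy
      have h1 := hface y hy _ (pos_mem_sqr _ _)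
      apply mem_box_of_pos hd hRge
      have := hCa n
      linarith
  refine ⟨A, R, hApos, hRtop, hRR, ?_⟩
  intro φ hφ
  obtain ⟨η, hη, hηK⟩ := hφ.cpt.isCompact.exists_cthickening_subset_open hΩ hφ.sub
  have hKc : IsCompact (Metric.cthickening η (tsupport φ)) := hφ.cpt.isCompact.cthickening
  obtain ⟨C1, hC10, hC1⟩ := isBump_phin hφ.smooth hφ.cpt (A := A + 1) (by positivity)
  set C0 := max (C1 / A ^ 2 + C1 + 1) (2 * (A + 1) / η) with hC0
  have hC0p : 0 < C0 := lt_of_lt_of_le (by positivity) (le_max_left _ _)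
  refine ⟨C0, hC0p, ?_⟩
  filter_upwards [hRR, S.cara₁ _ hηK hKc] with n ⟨hR1, hRA, hRle, hfit⟩ hcar
  have hd := S.pos n
  have hRge : A / S.δ n ≤ R n := Nat.le_ceil _
  have hRpos : (0 : ℝ) < R n := by exact_mod_cast hR1
  have hbump1 := hC1 (S.δ n) (S.a n) (R n) hd hR1 hRle (by
    intro y hy
    have h0 : pos (S.δ n) (S.a n) y ∈ Ω := hφ.sub (subset_tsupport φ hy)
    have h1 : ‖pos (S.δ n) (S.a n) y‖ ≤ ϱ2 := by
      have := hϱ2' h0
      rw [mem_closedBall_zero_iff] at this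
      linarith [le_abs_self ϱ2']
    apply mem_box_of_pos hd hRge
    have := hCa n
    linarith)
  refine ⟨⟨hbump1.1, fun i j hij y => (hbump1.2 i j hij y).trans ?_⟩, ⟨?_, ?_⟩, ?_⟩
  · gcongr
    have : 0 ≤ C1 / A ^ 2 := by positivity
    exact le_trans (by linarith) (le_max_left _ _)
  · intro y hy
    have h1 := hbump1.1 y hy
    unfold phin at h1
    exact (mul_eq_zero.1 h1).resolve_left (by positivity)
  · intro i j hij y
    have h1 := hbump1.2 i j hij y
    have e : phin (S.δ n) (S.a n) φ = fun x => S.δ n ^ 2 * res (S.δ n) (S.a n) φ x := rfl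
    have hDy : ∀ (c : ℝ) (f : Pt → ℝ), Dy (fun x => c * f x) = fun x => c * Dy f x := by
      intro c f
      funext x
      simp only [Dy]
      ring
    have hDx : ∀ (c : ℝ) (f : Pt → ℝ), Dx (fun x => c * f x) = fun x => c * Dx f x := by
      intro c f
      funext x
      simp only [Dx]
      ring
    have hDyn : ∀ (m : ℕ) (c : ℝ) (f : Pt → ℝ), Dy^[m] (fun x => c * f x) =
        fun x => c * (Dy^[m] f) x := by
      intro m c
      induction m with
      | zero => intro f; rfl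
      | succ m ih => intro f; rw [Function.iterate_succ_apply, hDy, ih, Function.iterate_succ_apply]
    have hDxn : ∀ (m : ℕ) (c : ℝ) (f : Pt → ℝ), Dx^[m] (fun x => c * f x) =
        fun x => c * (Dx^[m] f) x := by
      intro m c
      induction m with
      | zero => intro f; rfl
      | succ m ih => intro f; rw [Function.iterate_succ_apply, hDx, ih, Function.iterate_succ_apply]
    rw [e, hDyn, hDxn] at h1
    simp only at h1
    rw [abs_mul, abs_of_pos (by positivity : 0 < S.δ n ^ 2)] at h1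
    have h2 : S.δ n ^ 2 * |(Dx^[i] (Dy^[j] (res (S.δ n) (S.a n) φ))) y| ≤
        S.δ n ^ 2 * (C1 / A ^ 2 * ((R n : ℝ)⁻¹) ^ (i + j)) := by
      refine h1.trans ?_
      rw [← mul_assoc]
      gcongr
      rw [div_le_iff₀ (by positivity)]
      have h3 : A ^ 2 ≤ (S.δ n * R n) ^ 2 := by gcongr
      calc C1 = C1 / A ^ 2 * A ^ 2 := by field_simp
        _ ≤ C1 / A ^ 2 * (S.δ n * R n) ^ 2 := by gcongr
        _ = S.δ n ^ 2 * (C1 / A ^ 2) * (R n : ℝ) ^ 2 := by ring
    have h4 := le_of_mul_le_mul_left h2 (by positivity)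
    refine h4.trans ?_
    gcongr
    exact le_trans (by linarith) (le_max_left _ _)
  · intro y hy0
    obtain ⟨q, hq, hqd⟩ := G45.exists_dF (G45.exists_notMem (A1.faceSet_finite (S.T n))) y
    have h2 : η < ‖pos (S.δ n) (S.a n) q - pos (S.δ n) (S.a n) y‖ := by
      by_contra hcon
      push Not at hcon
      have h3 : pos (S.δ n) (S.a n) q ∈ Metric.cthickening η (tsupport φ) := by
        apply Metric.mem_cthickening_of_dist_le _ (pos (S.δ n) (S.a n) y) η _
          (subset_tsupport φ hy0)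
        rw [dist_eq_norm]
        exact hcon
      have h4 := (KConn.mem_interior_region_iff hd).1 (hcar h3) q (pos_mem_sqr _ _)
      exact hq h4
    have h5 := norm_pos_le hd (S.a n) y q
    have h6 : ((dinf y q : ℤ) : ℝ) = (dF (S.T n).faceSet y : ℝ) := by
      rw [← hqd]
      unfold dn
      have h7 := dinf_nonneg y q
      have h8 : (((dinf y q).toNat : ℕ) : ℤ) = dinf y q := Int.toNat_of_nonneg h7
      exact_mod_cast h8.symm
    rw [h6] at h5
    have h9 : η < 2 * S.δ n * (dF (S.T n).faceSet y : ℝ) := h2.trans_le h5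
    have h10 : 2 * (A + 1) / η ≤ C0 := le_max_right _ _
    have h11 : (R n : ℝ) ≤ (A + 1) / S.δ n := by
      rw [le_div_iff₀ hd]
      linarith
    calc (R n : ℝ) ≤ (A + 1) / S.δ n := h11
      _ ≤ 2 * (A + 1) / η * (dF (S.T n).faceSet y : ℝ) := by
          rw [div_mul_eq_mul_div, div_le_div_iff₀ hd hη]
          nlinarith
      _ ≤ C0 * dF (S.T n).faceSet y := by gcongr

/-- `J_main` along the approximations, with `θ = √(π/2)`. -/
theorem jmain_seq (hΩ : IsOpen Ω) (hJ : Skel.J_main) (hb : Bornology.IsBounded Ω) (k : ℕ)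
    {φ : ℂ → ℝ} (hφ : K.IsTest Ω φ) {ε : ℝ} (hε : 0 < ε) : ∀ᶠ n in atTop,
    ∀ u : Conf → Pt → ℝ,
    (∀ ω ∈ DD (S.T n).V, IsGreen (Ok (S.T n) k ω) (phin (S.δ n) (S.a n) φ) (u ω)) →
    Ex (S.T n).V (fun ω => ‖cEx (S.T n).V (Fk (S.T n).V k) (fun ω' =>
        Complex.exp (Complex.I * (Real.sqrt (Real.pi / 2) : ℝ) *
          hkf k ω' (phin (S.δ n) (S.a n) φ))) ω -
      (Real.exp (-(1 / 2) * pair (phin (S.δ n) (S.a n) φ) (u ω)) : ℝ)‖) ≤ ε := by
  obtain ⟨A, R, -, hRtop, hRR, hbump⟩ := seq_data S hΩ hb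
  obtain ⟨C0, hC0, hB⟩ := hbump φ hφ
  obtain ⟨c, hc, C, hC⟩ := hJ k (Real.sqrt (Real.pi / 2)) C0
  have hlim : Tendsto (fun n => C * (R n : ℝ) ^ (-c)) atTop (𝓝 0) := by
    have := ((tendsto_rpow_neg_atTop hc).comp hRtop).const_mul C
    simpa using this
  filter_upwards [hRR, hB, (tendsto_order.1 hlim).2 ε hε] with n ⟨hR1, _, _, hfits⟩ ⟨hb1, _, hfar⟩
    hCε u hu
  have key := hC (R n) (S.T n) (phin (S.δ n) (S.a n) φ) hR1 hfits hb1
    (fun y hy => hfar y (right_ne_zero_of_mul hy))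
    (Real.sqrt (Real.pi / 2)) (by rw [abs_of_nonneg (Real.sqrt_nonneg _)]) u hu
  have hθ : -(Real.sqrt (Real.pi / 2)) ^ 2 / Real.pi = -(1 / 2) := by
    rw [Real.sq_sqrt (by positivity)]
    field_simp
  rw [hθ] at key
  exact key.trans hCε.le

end Vale.Agent.P155.SW814
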